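import Vale.Agent.P283B.AllL

/-!
# Shokurov's conjecture on bounded klt complements
-/

open CategoryTheory AlgebraicGeometry

namespace Vale.Agent.Results.P283.AFull

open Vale.Agent.P289 Vale.Agent.P283B Vale.Agent.P283B.Lit

/-- For all `d ≥ 1`, `ε > 0` and finite `R ⊆ [0, 1] ∩ ℚ` there is `n ≥ 1` such that: if `(X, B)` is
an `ε`-lc pair of dimension `d` with the coefficients in `R`, `f : X → Z` is a contraction, `X` is
of Fano type over `Z`, `-(K_X + B)` is nef over `Z`, and `z` is a closed point of `Z`, then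
`(X, B)` has a klt `n`-complement over `z`. -/
theorem result : ∀ (d : ℕ) (ε : ℝ) (R : Finset ℚ), 1 ≤ d → 0 < ε → (∀ r ∈ R, 0 ≤ r ∧ r ≤ 1) →
    ∃ n : ℕ, 1 ≤ n ∧ ∀ (X Z : QV) (f : Contraction X Z) (ω : X.Form d) (κ B : X.QDiv) (z : Pt Z.X),
      IsCanonical ω κ → IsEpsLc ε ω κ B → (∀ y, B y ≠ 0 → B y ∈ R) → IsFanoType f ω κ →
        IsNefOver f (-(κ + B)) → IsClosed ({z} : Set Z.X) →
          ∃ Λ, IsKltComplement f ω κ B z n Λ :=
  fun d ε R a b r =>
    let ⟨n, n1, H⟩ := q1All d ε R a b r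
    ⟨n, n1, fun X Z f ω κ B z h1 h2 h3 h4 h5 h6 => H X Z f ω κ B z h1 h2 h3 h4 h5 h6 trivial⟩

end Vale.Agent.Results.P283.AFull
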